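import Vale.Agent.P235.H750.VDefs

/-! P235, Theorem V, row [CMP]: shrinking small balls around the points of `O` (with disjoint
five times larger balls) changes the distances on `O` by a factor at most four (helper222). -/

set_option autoImplicit false

namespace Vale.Agent.P235.H222

open SimpleGraph Vale.Agent.P235 Vale.Agent.P235.H606

/-- the bump: `1` on the ball of radius `R`, `0` outside the ball of radius `5 R` -/
noncomputable def bump (R t : ℝ) : ℝ := max 0 (min 1 ((5 * R - t) / (4 * R)))

theorem bump_nonneg (R t : ℝ) : 0 ≤ bump R t := le_max_left _ _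

theorem bump_le_one (R t : ℝ) : bump R t ≤ 1 :=
  max_le zero_le_one (min_le_left _ _)

theorem bump_in {R t : ℝ} (hR : 0 < R) (h : t ≤ R) : bump R t = 1 := by
  have h1 : 1 ≤ (5 * R - t) / (4 * R) := by
    rw [le_div_iff₀ (by positivity)]
    linarith
  rw [bump, min_eq_left h1, max_eq_right zero_le_one]

theorem bump_out {R t : ℝ} (hR : 0 < R) (h : 5 * R ≤ t) : bump R t = 0 := by
  have h1 : (5 * R - t) / (4 * R) ≤ 0 := div_nonpos_of_nonpos_of_nonneg (by linarith) (by linarith)
  rw [bump]
  exact max_eq_left ((min_le_right _ _).trans h1)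

theorem bump_zero (t : ℝ) : bump 0 t = 0 := by
  simp [bump]

theorem bump_lip {R : ℝ} (hR : 0 < R) (s t : ℝ) : |bump R s - bump R t| ≤ |s - t| / (4 * R) := by
  have h1 : |bump R s - bump R t| ≤ |(5 * R - s) / (4 * R) - (5 * R - t) / (4 * R)| := by
    unfold bump
    refine (abs_max_sub_max_le_max _ _ _ _).trans ?_
    rw [sub_self, abs_zero]
    refine max_le (abs_nonneg _) ?_
    refine (abs_min_sub_min_le_max _ _ _ _).trans ?_
    rw [sub_self, abs_zero]
    exact max_le (abs_nonneg _) le_rfl
  refine h1.trans (le_of_eq ?_)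
  rw [← sub_div, abs_div, abs_of_pos (show (0 : ℝ) < 4 * R by positivity), abs_sub_comm s t]
  congr 2
  ring

/-- the comparison -/
theorem cmp_core {V : Type} [Finite V] {G : SimpleGraph V} {ℓ ℓ' : Sym2 V → ℝ}
    (hc : G.Connected) (hℓ : ∀ e ∈ G.edgeSet, 0 < ℓ e) {O : Set V} {R : V → ℝ}
    (hR : ∀ o ∈ O, 0 ≤ R o) (hdis : O.PairwiseDisjoint fun o => ball G ℓ o (5 * R o))
    (h0 : ∀ u v, G.Adj u v → 0 ≤ ℓ' s(u, v))
    (h1 : ∀ u v, G.Adj u v → (∀ o ∈ O, ¬ (u ∈ ball G ℓ o (R o) ∧ v ∈ ball G ℓ o (R o))) →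
      ℓ s(u, v) ≤ ℓ' s(u, v)) :
    ∀ a ∈ O, ∀ b ∈ O, pathDist G ℓ a b ≤ 4 * pathDist G ℓ' a b := by
  classical
  intro a ha b hb
  have hd := pathDist_isMet hc hℓ
  have hn : ∀ x y, 0 ≤ pathDist G ℓ x y := pathDist_nonneg hℓ
  obtain ⟨d, hdd⟩ : ∃ d : V → V → ℝ, d = pathDist G ℓ := ⟨_, rfl⟩
  rw [← hdd] at hd hn
  have hball : ∀ o x r, x ∈ ball G ℓ o r ↔ d o x ≤ r := fun o x r => by rw [hdd]; rfl
  -- the bumps
  obtain ⟨m, hm⟩ : ∃ m : V → V → ℝ, m = fun o x => if o ∈ O then bump (R o) (d o x) else 0 :=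
    ⟨_, rfl⟩
  have hm0 : ∀ o x, 0 ≤ m o x := by
    intro o x
    rw [hm]
    dsimp only
    split_ifs
    · exact bump_nonneg _ _
    · exact le_rfl
  have hm1 : ∀ o x, m o x ≤ 1 := by
    intro o x
    rw [hm]
    dsimp only
    split_ifs
    · exact bump_le_one _ _
    · exact zero_le_one
  -- where `m` is not zero
  have hms : ∀ o x, m o x ≠ 0 → o ∈ O ∧ 0 < R o ∧ d o x ≤ 5 * R o := by
    intro o x h
    rw [hm] at h
    dsimp only at h
    split_ifs at h with ho
    · have hRo : 0 < R o := by
        rcases (hR o ho).lt_or_eq with h' | h'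
        · exact h'
        · rw [← h', bump_zero] at h
          exact absurd rfl h
      refine ⟨ho, hRo, ?_⟩
      by_contra hlt
      exact h (bump_out hRo (le_of_lt (not_le.1 hlt)))
    · exact absurd rfl h
  have hml : ∀ o x y, (m o x ≠ 0 ∨ m o y ≠ 0) → |m o x - m o y| ≤ d x y / (4 * R o) := by
    intro o x y h
    have ho : o ∈ O ∧ 0 < R o := by
      rcases h with h | h
      · exact ⟨(hms o x h).1, (hms o x h).2.1⟩
      · exact ⟨(hms o y h).1, (hms o y h).2.1⟩
    have e1 : ∀ z, m o z = bump (R o) (d o z) := by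
      intro z
      rw [hm]
      dsimp only
      rw [if_pos ho.1]
    rw [e1, e1]
    refine (bump_lip ho.2 _ _).trans ?_
    refine div_le_div_of_nonneg_right ?_ (by linarith [ho.2])
    rw [abs_le]
    have t1 := hd.tri o x y
    have t2 := hd.tri o y x
    rw [hd.symm y x] at t2
    constructor <;> linarith
  -- one bump at a time
  have huniq : ∀ x, ∃ o, ∀ o', o' ≠ o → m o' x = 0 := by
    intro x
    by_cases h : ∃ o, m o x ≠ 0
    · obtain ⟨o, ho⟩ := h
      refine ⟨o, fun o' hne => ?_⟩
      by_contra h'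
      obtain ⟨p1, -, p3⟩ := hms o x ho
      obtain ⟨q1, -, q3⟩ := hms o' x h'
      exact Set.disjoint_left.1 (hdis q1 p1 hne) ((hball _ _ _).2 q3) ((hball _ _ _).2 p3)
    · push Not at h
      exact ⟨x, fun o' _ => h o'⟩
  choose c hcx using huniq
  -- the functions
  obtain ⟨g, hg⟩ : ∃ g : V → ℝ, g = fun x => d a x := ⟨_, rfl⟩
  have hgl : ∀ x y, |g x - g y| ≤ d x y := by
    intro x y
    rw [hg, abs_le]
    dsimp only
    have t1 := hd.tri a x y
    have t2 := hd.tri a y x
    rw [hd.symm y x] at t2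
    constructor <;> linarith
  obtain ⟨u, hu⟩ : ∃ u : V → V → ℝ, u = fun o x => m o x * (g x - g o) := ⟨_, rfl⟩
  have huv : ∀ o x, u o x = m o x * (g x - g o) := fun o x => by rw [hu]
  obtain ⟨h, hh⟩ : ∃ h : V → ℝ, h = fun x => g x - u (c x) x := ⟨_, rfl⟩
  have hhv : ∀ x, h x = g x - u (c x) x := fun x => by rw [hh]
  -- zero on one side
  have hu0 : ∀ o x y, m o y = 0 → |u o x| ≤ 5 / 4 * d x y := by
    intro o x y hy
    rw [huv, abs_mul]
    by_cases hx : m o x = 0
    · rw [hx, abs_zero, zero_mul]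
      have := hn x y
      positivity
    · obtain ⟨-, p2, p3⟩ := hms o x hx
      have e1 := hml o x y (Or.inl hx)
      rw [hy, sub_zero] at e1
      have e2 : |g x - g o| ≤ 5 * R o := (hgl x o).trans (by rw [hd.symm]; exact p3)
      calc |m o x| * |g x - g o| ≤ d x y / (4 * R o) * (5 * R o) :=
            mul_le_mul e1 e2 (abs_nonneg _) (div_nonneg (hn x y) (by linarith))
        _ = 5 / 4 * d x y := by field_simp
  have hu1 : ∀ o x y, |u o x - u o y| ≤ 9 / 4 * d x y := by
    intro o x y
    by_cases hy : m o y = 0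
    · have e1 := hu0 o x y hy
      have e2 : u o y = 0 := by rw [huv, hy, zero_mul]
      rw [e2, sub_zero]
      have := hn x y
      linarith
    · obtain ⟨-, p2, p3⟩ := hms o y hy
      have e1 := hml o x y (Or.inr hy)
      have e2 : |g y - g o| ≤ 5 * R o := (hgl y o).trans (by rw [hd.symm]; exact p3)
      have e3 : u o x - u o y = m o x * (g x - g y) + (m o x - m o y) * (g y - g o) := by
        rw [huv, huv]
        ring
      rw [e3]
      refine (abs_add_le _ _).trans ?_
      rw [abs_mul, abs_mul]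
      have e4 : |m o x| * |g x - g y| ≤ 1 * d x y := by
        refine mul_le_mul ?_ (hgl x y) (abs_nonneg _) zero_le_one
        rw [abs_of_nonneg (hm0 o x)]
        exact hm1 o x
      have e5 : |m o x - m o y| * |g y - g o| ≤ 5 / 4 * d x y := by
        calc |m o x - m o y| * |g y - g o| ≤ d x y / (4 * R o) * (5 * R o) :=
              mul_le_mul e1 e2 (abs_nonneg _) (div_nonneg (hn x y) (by linarith))
          _ = 5 / 4 * d x y := by field_simp
      linarith
  -- `h` is 7/2-Lipschitz
  have hhl : ∀ x y, |h x - h y| ≤ 7 / 2 * d x y := by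
    intro x y
    have e0 := hgl x y
    rw [hhv, hhv]
    by_cases hxy : c x = c y
    · rw [hxy]
      have e1 := hu1 (c y) x y
      have e2 : g x - u (c y) x - (g y - u (c y) y) = (g x - g y) - (u (c y) x - u (c y) y) := by
        ring
      rw [e2]
      refine (abs_sub _ _).trans ?_
      have := hn x y
      linarith
    · have e1 := hu0 (c x) x y (hcx y _ hxy)
      have e2 := hu0 (c y) y x (hcx x _ (Ne.symm hxy))
      rw [hd.symm y x] at e2
      have e3 : g x - u (c x) x - (g y - u (c y) y) = (g x - g y) - (u (c x) x - u (c y) y) := by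
        ring
      rw [e3]
      refine (abs_sub _ _).trans ?_
      have e4 := abs_sub (u (c x) x) (u (c y) y)
      linarith
  -- `h` is constant on the small balls
  have hhc : ∀ o ∈ O, ∀ x, d o x ≤ R o → h x = g o := by
    intro o ho x hx
    rcases (hR o ho).lt_or_eq with hpos | hzero
    · have e1 : m o x = 1 := by
        rw [hm]
        dsimp only
        rw [if_pos ho]
        exact bump_in hpos hx
      have e2 : c x = o := by
        by_contra hne
        have := hcx x o (fun h' => hne h'.symm)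
        rw [e1] at this
        exact one_ne_zero this
      rw [hhv, e2, huv, e1]
      ring
    · have e1 : x = o := by
        by_contra hne
        have := hd.pos o x (fun h' => hne h'.symm)
        rw [← hzero] at hx
        linarith
      subst e1
      have e2 : m (c x) x = 0 := by
        by_contra hne
        obtain ⟨p1, p2, p3⟩ := hms _ _ hne
        have e3 : c x ≠ x := by
          intro h'
          rw [h'] at p2
          linarith
        exact Set.disjoint_left.1 (hdis p1 ho e3) ((hball _ _ _).2 p3)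
          ((hball _ _ _).2 (by rw [hd.self, ← hzero]; simp))
      rw [hhv, huv, e2]
      ring
  have hself : ∀ o ∈ O, h o = g o := fun o ho => hhc o ho o (by rw [hd.self]; exact hR o ho)
  -- the path
  have key := pathDist_gen (G := G) (ℓ := ℓ') hc (f := fun x => 2 / 7 * h x) (fun x y hxy => by
    rw [← mul_sub, abs_mul, abs_of_pos (show (0 : ℝ) < 2 / 7 by norm_num)]
    by_cases hin : ∃ o ∈ O, x ∈ ball G ℓ o (R o) ∧ y ∈ ball G ℓ o (R o)
    · obtain ⟨o, ho, hx, hy⟩ := hin
      rw [hhc o ho x ((hball _ _ _).1 hx), hhc o ho y ((hball _ _ _).1 hy), sub_self, abs_zero,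
        mul_zero]
      exact h0 x y hxy
    · push Not at hin
      have e1 := h1 x y hxy fun o ho hx => hin o ho hx.1 hx.2
      have e2 : d x y ≤ ℓ s(x, y) := by
        rw [hdd]
        exact pathDist_adj hℓ hxy
      have e3 := hhl x y
      linarith) a b
  rw [hself a ha, hself b hb, ← mul_sub, abs_mul,
    abs_of_pos (show (0 : ℝ) < 2 / 7 by norm_num)] at key
  have e1 : |g a - g b| = d a b := by
    rw [hg]
    dsimp only
    rw [hd.self, zero_sub, abs_neg, abs_of_nonneg (hn a b)]
  rw [e1] at key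
  have := hn a b
  rw [← hdd]
  linarith

/-- **(CMP)** -/
theorem cmp : H750.CmpStmt := by
  intro V _ G ℓ ℓ' O R hc hℓ hℓ' hR hdis heq
  refine cmp_core hc hℓ (fun o ho => (hR o ho).le) hdis
    (fun u v huv => (hℓ' _ ((G.mem_edgeSet).2 huv)).le) fun u v huv h => ?_
  refine le_of_eq (heq u v huv ?_).symm
  rintro ⟨o, ho, h1, h2⟩
  exact h o ho ⟨h1, h2⟩

end Vale.Agent.P235.H222
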